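import Vale.Agent.P335.General.Disjoint
import Vale.Agent.P335.General.Triple
import Vale.Agent.P335.General.Connected
import Vale.Agent.P335.General.Gap

/-! The Kannan–Tetali–Vempala conjecture: the switch chain mixes in polynomial time for every
degree sequence. -/

namespace Vale.Agent.Results.P335.KTVConjecture

open Vale.Agent.P335

theorem result : ∀ n, 4 ≤ n → ∀ d : Fin n → ℕ,
    ∀ t, 3 * 2 ^ 20 * n ^ 10 ≤ t → ∀ G : Omega d, tvDist d t G ≤ 1 / 4 := by
  intro n hn d t ht G
  refine tv_le_of_poincare d hn (2 ^ 20 * n ^ 8) ?_ (fun f hf => ?_) t ?_ G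
  · have h1 : 1 ≤ n ^ 8 := Nat.one_le_pow _ _ (by omega)
    omega
  · have h := Graph.poincare_form_of (d := d) (fun hab hac hbc f => Graph.triple_nonneg hab hac hbc f)
      Graph.Dsum_nonneg (fun f hf => Graph.const_of_swp_invariant f hf)
      (fun hab f => Graph.dev_le_sdir hab f) f hf
    push_cast
    linarith
  · have h1 : n * n + 2 ≤ 3 * n ^ 2 := by nlinarith
    refine le_trans (Nat.mul_le_mul_right _ h1) (le_trans (le_of_eq ?_) ht)
    ring

end Vale.Agent.Results.P335.KTVConjecture
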